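import Vale.Agent.P017.R4.H985.All2

/-!
# `X₀(15)(K)` is finite for fifteen percent of the imaginary quadratic fields `K`

`X015` is the modular curve `X₀(15)`, with its Weierstrass equation
`y² + xy + y = x³ + x² - 10x - 10` over `ℚ` (the curve `15a1` of Cremona's tables).
-/

universe u

open Vale.Agent.P017.H185 (X015)

namespace Vale.Agent.Results.P017.FifteenPercent

/-- `-n` is the discriminant of an imaginary quadratic field -/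
def IsDisc (n : ℕ) : Prop := (Squarefree n ∧ n % 4 = 3) ∨
  ∃ m : ℕ, n = 4 * m ∧ Squarefree m ∧ (m % 4 = 1 ∨ m % 4 = 2)

/-- `X₀(15)(ℚ(√-n))` is finite -/
def Fin15 (n : ℕ) : Prop :=
  ∀ (K : Type u) [Field K] [NumberField K] [Algebra.IsQuadraticExtension ℚ K] (θ : K),
    θ ^ 2 = -(n : K) → Finite (X015.baseChange K).toAffine.Point

/-- for a discriminant `-n`: in `ℚ(√-n)` the prime `3` is not inert and `5` does not split, or `3`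
is inert and `5` splits -/
def Loc (n : ℕ) : Prop :=
  ((3 ∣ n ∨ n % 3 = 2) ∧ (5 ∣ n ∨ n % 5 = 2 ∨ n % 5 = 3)) ∨ (n % 3 = 1 ∧ (n % 5 = 1 ∨ n % 5 = 4))

/-- At least fifteen percent of all imaginary quadratic fields `K`, ordered by `|disc K|`, have
finite `X₀(15)(K)`; and every proportion below `∏ (1 - 2⁻ⁱ) = 0.2887…` of those that satisfy the
local conditions `Loc`, also for each type of discriminants (odd, `4` modulo `8`, `0` modulo `8`)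
separately. -/
theorem result :
    (∃ X₀ : ℕ, ∀ X : ℕ, X₀ ≤ X →
      (15 / 100 : ℝ) * ({n : ℕ | n ≤ X ∧ IsDisc n}.ncard : ℝ) ≤
        ({n : ℕ | n ≤ X ∧ IsDisc n ∧ Fin15.{u} n}.ncard : ℝ)) ∧
    (∀ c : ℝ, c < ⨅ k : ℕ, ∏ i ∈ Finset.range k, (1 - (1 / 2 : ℝ) ^ (i + 1)) →
      ∃ X₀ : ℕ, ∀ X : ℕ, X₀ ≤ X →
        c * ({n : ℕ | n ≤ X ∧ IsDisc n ∧ Loc n}.ncard : ℝ) ≤
          ({n : ℕ | n ≤ X ∧ IsDisc n ∧ Loc n ∧ Fin15.{u} n}.ncard : ℝ)) ∧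
    ∀ j : ℕ, (j = 1 ∨ j = 4 ∨ j = 8) →
      ∀ c : ℝ, c < ⨅ k : ℕ, ∏ i ∈ Finset.range k, (1 - (1 / 2 : ℝ) ^ (i + 1)) →
      ∃ X₀ : ℕ, ∀ X : ℕ, X₀ ≤ X →
        c * ({n : ℕ | n ≤ X ∧ IsDisc n ∧ n.gcd 8 = j ∧ Loc n}.ncard : ℝ) ≤
          ({n : ℕ | n ≤ X ∧ IsDisc n ∧ n.gcd 8 = j ∧ Loc n ∧ Fin15.{u} n}.ncard : ℝ) :=
  Vale.Agent.P017.R4.H985.stage2_all

end Vale.Agent.Results.P017.FifteenPercent
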