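import Vale.Agent.P017.R2.H985.Final

/-!
# `X₀(15)(K)` is finite for a positive proportion of the imaginary quadratic fields `K`

`X015` is the modular curve `X₀(15)`, with its Weierstrass equation
`y² + xy + y = x³ + x² - 10x - 10` over `ℚ` (the curve `15a1` of Cremona's tables).
-/

universe u

open Vale.Agent.P017.H185 in
/-- For `r = 23` and for `r = 47` there are `c > 0` and `X₀` such that for all `X ≥ X₀` there are at
least `c X` squarefree `d ≤ X`, `d ≡ r mod 60`, for which `X₀(15)(ℚ(√-d))` is finite. -/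
theorem Vale.Agent.Results.P017.PositiveProportion.result :
    ∀ r : ℕ, r = 23 ∨ r = 47 → ∃ c : ℝ, 0 < c ∧ ∃ X₀ : ℕ, ∀ X : ℕ, X₀ ≤ X →
      c * X ≤ ({d : ℕ | d ≤ X ∧ Squarefree d ∧ d % 60 = r ∧
        ∀ (K : Type u) [Field K] [NumberField K] [Algebra.IsQuadraticExtension ℚ K] (θ : K),
          θ ^ 2 = -(d : K) → Finite (X015.baseChange K).toAffine.Point}.ncard : ℝ) :=
  fun _ hr => Vale.Agent.P017.R2.H985.positive_proportion Vale.Agent.P017.R2.H420.final hr
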