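import Vale.Agent.P017.R4.H985.PrimeK

/-!
# `X₀(15)(K)` is finite for explicit families of imaginary quadratic fields `K`

`X015` is the modular curve `X₀(15)`, with its Weierstrass equation
`y² + xy + y = x³ + x² - 10x - 10` over `ℚ` (the curve `15a1` of Cremona's tables).
-/

universe u

open Vale.Agent.P017.H185 (X015)

namespace Vale.Agent.Results.P017.PrimeDiscriminants

/-- `X₀(15)(ℚ(√-n))` is finite -/
def Fin15 (n : ℕ) : Prop :=
  ∀ (K : Type u) [Field K] [NumberField K] [Algebra.IsQuadraticExtension ℚ K] (θ : K),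
    θ ^ 2 = -(n : K) → Finite (X015.baseChange K).toAffine.Point

/-- (1) `X₀(15)(ℚ(√-p))` is finite for `p = 3`, `p = 5`, for every prime `p` congruent to `19`,
`23`, `31` or `47` modulo `60`, and for every prime `p` congruent to `53`, `61`, `77` or `109` modulo
`120`.  (2) `X₀(15)(ℚ(√-2p))` is finite for every prime `p` congruent to `17`, `19`, `23`, `47`,
`61`, `91`, `109` or `113` modulo `120`.  (3) For every `k ≥ 1` and `r = 19`, `31` there are
infinitely many squarefree `d` congruent to `r` modulo `60` with exactly `k` prime factors such that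
`X₀(15)(ℚ(√-d))` is finite. -/
theorem result :
    (∀ p : ℕ, p.Prime → (p = 3 ∨ p = 5 ∨ (p % 60 = 19 ∨ p % 60 = 23 ∨ p % 60 = 31 ∨ p % 60 = 47) ∨
      (p % 120 = 53 ∨ p % 120 = 61 ∨ p % 120 = 77 ∨ p % 120 = 109)) → Fin15.{u} p) ∧
    (∀ p : ℕ, p.Prime → (p % 120 = 17 ∨ p % 120 = 19 ∨ p % 120 = 23 ∨ p % 120 = 47 ∨
      p % 120 = 61 ∨ p % 120 = 91 ∨ p % 120 = 109 ∨ p % 120 = 113) → Fin15.{u} (2 * p)) ∧
    ∀ k : ℕ, 1 ≤ k → ∀ r : ℕ, (r = 19 ∨ r = 31) →
      {d : ℕ | Squarefree d ∧ d % 60 = r ∧ d.primeFactors.card = k ∧ Fin15.{u} d}.Infinite := by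
  refine ⟨fun p hp h => ?_, fun p hp h => Vale.Agent.P017.R4.H985.of_eight
    (Vale.Agent.P017.R4.H985.cls_eight hp h), fun k hk r hr => ?_⟩
  · rcases h with rfl | rfl | h | h
    · exact Vale.Agent.P017.R4.H985.cls_three
    · exact Vale.Agent.P017.R4.H985.of_four Vale.Agent.P017.R4.H985.cls_five
    · exact Vale.Agent.P017.R4.H985.cls_odd hp h
    · exact Vale.Agent.P017.R4.H985.of_four (Vale.Agent.P017.R4.H985.cls_four hp h)
  · obtain ⟨j, rfl⟩ : ∃ j, k = j + 1 := ⟨k - 1, by omega⟩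
    exact Vale.Agent.P017.R4.H985.family hr j

end Vale.Agent.Results.P017.PrimeDiscriminants
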